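import Vale.Agent.P151.QP.Defs

/-!
# The three cluster inequality

Percolation on a finite set `Λ` of edges; `al` is an increasing property of a set of vertices.
`D x y` is the event that the clusters of `x` and `y` are distinct and both have the property.
The main result is `P (D x y) * P (al (K_z)) ≤ 10 * P (D x y ∧ al (K_z))`, for all `x`, `y`, `z`.
-/

set_option autoImplicit false
set_option linter.unusedSectionVars false

open Finset

namespace Vale.Agent.P151.H990

open Vale.Agent.P151 Vale.Agent.P151.QP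

universe u
variable {V : Type u} [DecidableEq V]

/-- The expectation given that the edges of `S0` are open and the edges of `Λ` are not yet
revealed. -/
noncomputable def st (p : ℝ) (Λ S0 : Finset (Sym2 V)) (f : Finset (Sym2 V) → ℝ) : ℝ :=
  Ex p Λ (fun S => f (S ∪ S0))

lemma st_nonneg {p : ℝ} (h0 : 0 ≤ p) (h1 : p ≤ 1) {Λ S0 : Finset (Sym2 V)}
    {f : Finset (Sym2 V) → ℝ} (h : ∀ S, 0 ≤ f S) : 0 ≤ st p Λ S0 f :=
  Ex_nonneg h0 h1 fun _ _ => h _

lemma st_mono {p : ℝ} (h0 : 0 ≤ p) (h1 : p ≤ 1) {Λ S0 : Finset (Sym2 V)}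
    {f g : Finset (Sym2 V) → ℝ} (h : ∀ S, S0 ⊆ S → f S ≤ g S) : st p Λ S0 f ≤ st p Λ S0 g :=
  Ex_mono h0 h1 fun _ _ => h _ subset_union_right

lemma st_congr {p : ℝ} {Λ S0 : Finset (Sym2 V)}
    {f g : Finset (Sym2 V) → ℝ} (h : ∀ S, S0 ⊆ S → f S = g S) : st p Λ S0 f = st p Λ S0 g :=
  Ex_congr p fun _ _ => h _ subset_union_right

lemma st_split (p : ℝ) {Λ S0 : Finset (Sym2 V)} {e : Sym2 V} (he : e ∈ Λ)
    (f : Finset (Sym2 V) → ℝ) :
    st p Λ S0 f = p * st p (Λ.erase e) (insert e S0) f + (1 - p) * st p (Λ.erase e) S0 f := by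
  have h1 := Ex_insert p (notMem_erase e Λ) (fun S => f (S ∪ S0))
  rw [insert_erase he] at h1
  unfold st
  rw [h1]
  congr 2
  apply Ex_congr
  intro S _
  rw [insert_union, union_insert]

/-- The values with the edge open are the values of the function of `insert e S`. -/
lemma st_open (p : ℝ) {Λ S0 : Finset (Sym2 V)} {e : Sym2 V}
    (f : Finset (Sym2 V) → ℝ) :
    st p (Λ.erase e) (insert e S0) f = st p (Λ.erase e) S0 (fun S => f (insert e S)) := by
  unfold st
  apply Ex_congr
  intro S _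
  rw [union_insert]

section TC

variable (al : Finset V → Prop) (z x y : V)

/-- `x` and `y` are in distinct clusters with the property, `z` is in neither. -/
def RR (S : Finset (Sym2 V)) : Prop :=
  ¬ Cn S x y ∧ ¬ Cn S z x ∧ ¬ Cn S z y ∧ al (cl S x) ∧ al (cl S y)

/-- `x` and `y` are in distinct clusters with the property, `z` is joined to `x`. -/
def HH (S : Finset (Sym2 V)) : Prop :=
  ¬ Cn S x y ∧ Cn S z x ∧ al (cl S x) ∧ al (cl S y)

/-- Probability of given clusters. -/
noncomputable def wf (X Y : Finset V) (S : Finset (Sym2 V)) : ℝ :=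
  I1 (cl S x = X ∧ cl S y = Y ∧ RR al z x y S)

noncomputable def rf (Y : Finset V) (S : Finset (Sym2 V)) : ℝ :=
  I1 (cl S y = Y ∧ RR al z x y S)

noncomputable def hf (Y : Finset V) (S : Finset (Sym2 V)) : ℝ :=
  I1 (cl S y = Y ∧ HH al z x y S)

noncomputable def lf (S : Finset (Sym2 V)) : ℝ := I1 (al (cl S z))

variable {al z x y}

lemma RR.symm {S : Finset (Sym2 V)} (h : RR al z x y S) : RR al z y x S :=
  ⟨fun h' => h.1 h'.symm, h.2.2.1, h.2.1, h.2.2.2.2, h.2.2.2.1⟩

lemma wf_symm (X Y : Finset V) (S : Finset (Sym2 V)) : wf al z x y X Y S = wf al z y x Y X S := by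
  unfold wf
  by_cases h : cl S x = X ∧ cl S y = Y ∧ RR al z x y S
  · rw [I1_true h, I1_true ⟨h.2.1, h.1, h.2.2.symm⟩]
  · rw [I1_false h, I1_false]
    rintro ⟨h1, h2, h3⟩
    exact h ⟨h2, h1, h3.symm⟩

/-- The bound of the potential. -/
lemma arith {p h r l h' r' l' ho ro lo ρ ρc : ℝ} (h0 : 0 ≤ p) (h1 : p ≤ 1)
    (eh : h = p * ho + (1 - p) * h') (er : r = p * ro + (1 - p) * r')
    (el : l = p * lo + (1 - p) * l') (hl : l' ≤ lo) (hρ : ρ = (1 - p) * ρc)
    (hh : h' + ρc ≤ ho) (hr : ro ≤ r') :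
    p * (lo - l') * ρ + p * (ho * (5 - lo) + ro * lo / 4) +
      (1 - p) * (h' * (5 - l') + r' * l' / 4) ≤ h * (5 - l) + r * l / 4 := by
  have e1 : h * (5 - l) + r * l / 4 - (p * (ho * (5 - lo) + ro * lo / 4) +
      (1 - p) * (h' * (5 - l') + r' * l' / 4)) =
      p * (1 - p) * ((lo - l') * (ho - h') + (lo - l') * (r' - ro) / 4) := by
    rw [eh, er, el]; ring
  have e2 : 0 ≤ p * (1 - p) := mul_nonneg h0 (by linarith)
  have e3 : (lo - l') * ρc ≤ (lo - l') * (ho - h') :=
    mul_le_mul_of_nonneg_left (by linarith) (by linarith)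
  have e4 : 0 ≤ (lo - l') * (r' - ro) := mul_nonneg (by linarith) (by linarith)
  have e5 : p * (1 - p) * ((lo - l') * ρc) ≤
      p * (1 - p) * ((lo - l') * (ho - h') + (lo - l') * (r' - ro) / 4) :=
    mul_le_mul_of_nonneg_left (by linarith) e2
  rw [hρ]
  have e6 : p * (lo - l') * ((1 - p) * ρc) = p * (1 - p) * ((lo - l') * ρc) := by ring
  linarith

/-! ### One step -/

section step

variable {c v : V} {T : Finset (Sym2 V)}

/-- After opening an edge from the cluster of `z` to `v`. -/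
lemma Cn_open_z (hc : Cn T z c) : Cn (insert s(c, v) T) z v :=
  (hc.mono (subset_insert _ _)).trans (Cn_of_mem (mem_insert_self _ _))

/-- Opening the edge does not change a cluster that contains neither `z` nor `v`. -/
lemma cl_open (hc : Cn T z c) {a : V} (h1 : ¬ Cn T z a) (h2 : ¬ Cn T a v) :
    cl (insert s(c, v) T) a = cl T a := by
  ext b
  rw [mem_cl, mem_cl, Cn_insert]
  constructor
  · rintro (h | ⟨h, _⟩ | ⟨h, _⟩)
    · exact h
    · exact absurd (hc.trans h.symm) h1
    · exact absurd h h2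
  · exact fun h => Or.inl h

lemma RR_open (hc : Cn T z c) (h : RR al z x y (insert s(c, v) T)) :
    RR al z x y T ∧ ¬ Cn T x v ∧ ¬ Cn T y v ∧ cl (insert s(c, v) T) x = cl T x ∧
      cl (insert s(c, v) T) y = cl T y := by
  have hs : T ⊆ insert s(c, v) T := subset_insert _ _
  obtain ⟨h1, h2, h3, h4, h5⟩ := h
  have g1 : ¬ Cn T z x := fun h => h2 (h.mono hs)
  have g2 : ¬ Cn T z y := fun h => h3 (h.mono hs)
  have g3 : ¬ Cn T x v := fun h => h2 ((Cn_open_z hc).trans (h.symm.mono hs))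
  have g4 : ¬ Cn T y v := fun h => h3 ((Cn_open_z hc).trans (h.symm.mono hs))
  have e1 := cl_open hc g1 g3
  have e2 := cl_open hc g2 g4
  rw [e1] at h4
  rw [e2] at h5
  exact ⟨⟨fun h => h1 (h.mono hs), g1, g2, h4, h5⟩, g3, g4, e1, e2⟩

lemma RR_closed (hc : Cn T z c) (h : RR al z x y T) (hx : ¬ Cn T x v) (hy : ¬ Cn T y v) :
    RR al z x y (insert s(c, v) T) ∧ cl (insert s(c, v) T) x = cl T x ∧
      cl (insert s(c, v) T) y = cl T y := by
  obtain ⟨h1, h2, h3, h4, h5⟩ := h
  have e1 := cl_open hc h2 hx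
  have e2 := cl_open hc h3 hy
  refine ⟨⟨?_, ?_, ?_, by rwa [e1], by rwa [e2]⟩, e1, e2⟩
  · intro h
    have : y ∈ cl (insert s(c, v) T) x := mem_cl.2 h
    rw [e1, mem_cl] at this
    exact h1 this
  · intro h
    have : z ∈ cl (insert s(c, v) T) x := mem_cl.2 h.symm
    rw [e1, mem_cl] at this
    exact h2 this.symm
  · intro h
    have : z ∈ cl (insert s(c, v) T) y := mem_cl.2 h.symm
    rw [e2, mem_cl] at this
    exact h3 this.symm

lemma wf_open_of_mem (hc : Cn T z c) {X Y : Finset V} (hv : v ∈ X ∨ v ∈ Y) :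
    wf al z x y X Y (insert s(c, v) T) = 0 := by
  unfold wf
  apply I1_false
  rintro ⟨h1, h2, h3⟩
  obtain ⟨-, g3, g4, e1, e2⟩ := RR_open hc h3
  rcases hv with hv | hv
  · rw [← h1, e1, mem_cl] at hv
    exact g3 hv
  · rw [← h2, e2, mem_cl] at hv
    exact g4 hv

lemma wf_open_of_notMem (hc : Cn T z c) {X Y : Finset V} (hX : v ∉ X) (hY : v ∉ Y) :
    wf al z x y X Y (insert s(c, v) T) = wf al z x y X Y T := by
  unfold wf
  by_cases h : cl T x = X ∧ cl T y = Y ∧ RR al z x y T
  · obtain ⟨h1, h2, h3⟩ := h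
    have g1 : ¬ Cn T x v := fun h => hX (by rw [← h1, mem_cl]; exact h)
    have g2 : ¬ Cn T y v := fun h => hY (by rw [← h2, mem_cl]; exact h)
    obtain ⟨k1, k2, k3⟩ := RR_closed hc h3 g1 g2
    rw [I1_true ⟨k2.trans h1, k3.trans h2, k1⟩, I1_true ⟨h1, h2, h3⟩]
  · rw [I1_false h, I1_false]
    rintro ⟨h1, h2, h3⟩
    obtain ⟨k1, -, -, k2, k3⟩ := RR_open hc h3
    exact h ⟨k2.symm.trans h1, k3.symm.trans h2, k1⟩

lemma rf_open_le (hc : Cn T z c) {Y : Finset V} :
    rf al z x y Y (insert s(c, v) T) ≤ rf al z x y Y T := by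
  unfold rf
  apply I1_mono
  rintro ⟨h2, h3⟩
  obtain ⟨k1, -, -, k2, k3⟩ := RR_open hc h3
  exact ⟨k3.symm.trans h2, k1⟩

lemma rf_open_of_mem (hc : Cn T z c) {Y : Finset V} (hv : v ∈ Y) :
    rf al z x y Y (insert s(c, v) T) = 0 := by
  unfold rf
  apply I1_false
  rintro ⟨h2, h3⟩
  obtain ⟨-, g3, g4, e1, e2⟩ := RR_open hc h3
  rw [← h2, e2, mem_cl] at hv
  exact g4 hv

lemma hf_open_of_mem (hc : Cn T z c) {Y : Finset V} (hv : v ∈ Y) :
    hf al z x y Y (insert s(c, v) T) = 0 := by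
  unfold hf
  apply I1_false
  rintro ⟨h2, h3⟩
  rw [← h2, mem_cl] at hv
  exact h3.1 (h3.2.1.symm.trans ((Cn_open_z hc).trans hv.symm))

/-- The event with `v` joined to `x`. -/
lemma hf_open_ge (hal : ∀ A B : Finset V, A ⊆ B → al A → al B) (hc : Cn T z c) {Y : Finset V}
    (hv : v ∉ Y) :
    hf al z x y Y T + I1 (cl T y = Y ∧ RR al z x y T ∧ Cn T x v) ≤
      hf al z x y Y (insert s(c, v) T) := by
  have hs : T ⊆ insert s(c, v) T := subset_insert _ _
  unfold hf
  by_cases h : cl T y = Y ∧ HH al z x y T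
  · obtain ⟨h1, h2, h3, h4, h5⟩ := h
    have g1 : ¬ Cn T y v := fun h => hv (by rw [← h1, mem_cl]; exact h)
    have g2 : ¬ Cn T z y := fun h => h2 (h3.symm.trans h)
    have e1 := cl_open hc g2 g1
    rw [I1_true ⟨h1, h2, h3, h4, h5⟩, I1_false, I1_true, add_zero]
    · refine ⟨e1.trans h1, ?_, h3.mono hs, hal _ _ (cl_mono hs x) h4, by rwa [e1]⟩
      intro h
      have : x ∈ cl (insert s(c, v) T) y := mem_cl.2 h.symm
      rw [e1, mem_cl] at this
      exact h2 this.symm
    · rintro ⟨-, h6, -⟩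
      exact h6.2.1 h3
  · rw [I1_false h, zero_add]
    apply I1_mono
    rintro ⟨h1, ⟨h2, h3, h4, h5, h6⟩, h7⟩
    have g1 : ¬ Cn T y v := fun h => hv (by rw [← h1, mem_cl]; exact h)
    have e1 := cl_open hc h4 g1
    refine ⟨e1.trans h1, ?_, (Cn_open_z hc).trans (h7.symm.mono hs), hal _ _ (cl_mono hs x) h5,
      by rwa [e1]⟩
    intro h
    have : x ∈ cl (insert s(c, v) T) y := mem_cl.2 h.symm
    rw [e1, mem_cl] at this
    exact h2 this.symm

lemma lf_open_ge (hal : ∀ A B : Finset V, A ⊆ B → al A → al B) (e : Sym2 V) :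
    lf al z T ≤ lf al z (insert e T) :=
  I1_mono (hal _ _ (cl_mono (subset_insert _ _) z))

end step

/-! ### Sums over the cluster of `x` -/

lemma sum_wf {P : Finset (Finset V)} {S : Finset (Sym2 V)} (hP : cl S x ∈ P) (Y : Finset V) :
    ∑ X ∈ P, wf al z x y X Y S = rf al z x y Y S := by
  rw [sum_eq_single (cl S x)]
  · unfold wf rf
    by_cases h : cl S y = Y ∧ RR al z x y S
    · rw [I1_true h, I1_true ⟨rfl, h⟩]
    · rw [I1_false h, I1_false fun h' => h h'.2]
  · intro X _ hX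
    exact I1_false fun h => hX h.1.symm
  · intro h; exact absurd hP h

open Classical in
lemma sum_wf_mem {P : Finset (Finset V)} {S : Finset (Sym2 V)} (hP : cl S x ∈ P) (Y : Finset V)
    (v : V) : ∑ X ∈ P, (if v ∈ X then wf al z x y X Y S else 0) =
      I1 (cl S y = Y ∧ RR al z x y S ∧ Cn S x v) := by
  rw [sum_eq_single (cl S x)]
  · unfold wf
    by_cases hv : v ∈ cl S x
    · rw [if_pos hv]
      by_cases h : cl S y = Y ∧ RR al z x y S
      · rw [I1_true (P := cl S x = cl S x ∧ cl S y = Y ∧ RR al z x y S) ⟨rfl, h⟩,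
          I1_true ⟨h.1, h.2, mem_cl.1 hv⟩]
      · rw [I1_false (P := cl S x = cl S x ∧ cl S y = Y ∧ RR al z x y S) fun h' => h h'.2,
          I1_false fun h' => h ⟨h'.1, h'.2.1⟩]
    · rw [if_neg hv, I1_false]
      rintro ⟨-, -, h⟩
      exact hv (mem_cl.2 h)
  · intro X _ hX
    rw [wf, I1_false fun h => hX h.1.symm]
    split_ifs <;> rfl
  · intro h; exact absurd hP h

/-! ### The induction -/

lemma st_sum (p : ℝ) (Λ S0 : Finset (Sym2 V)) {κ : Type*} (s : Finset κ)
    (f : κ → Finset (Sym2 V) → ℝ) :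
    ∑ k ∈ s, st p Λ S0 (f k) = st p Λ S0 (fun S => ∑ k ∈ s, f k S) := by
  unfold st
  rw [← Ex_sum]

lemma st_zero (p : ℝ) (Λ S0 : Finset (Sym2 V)) : st p Λ S0 (fun _ => 0) = 0 := by
  unfold st
  exact Ex_const p Λ 0

variable (al z x y)

/-- The bound for one side. -/
noncomputable def bd (p : ℝ) (Λ S0 : Finset (Sym2 V)) (Y : Finset V) : ℝ :=
  st p Λ S0 (hf al z x y Y) * (5 - st p Λ S0 (lf al z)) +
    st p Λ S0 (rf al z x y Y) * st p Λ S0 (lf al z) / 4

open Classical in
/-- The new value. -/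
noncomputable def nU (p : ℝ) (Λ S0 : Finset (Sym2 V)) (v : V) (a : ℝ)
    (Uo Uc : Finset V → Finset V → ℝ) (X Y : Finset V) : ℝ :=
  if st p Λ S0 (rf al z x y Y) ≤ 4 * st p Λ S0 (hf al z x y Y) then st p Λ S0 (wf al z x y X Y)
  else a * (if v ∈ X then st p Λ S0 (wf al z x y X Y) else 0) +
    (p * Uo X Y + (1 - p) * Uc X Y)

variable {al z x y}

lemma lf_nonneg (S : Finset (Sym2 V)) : 0 ≤ lf al z S := I1_nonneg _
lemma lf_le_one (S : Finset (Sym2 V)) : lf al z S ≤ 1 := I1_le_one _

lemma ell_nonneg {p : ℝ} (h0 : 0 ≤ p) (h1 : p ≤ 1) (Λ S0 : Finset (Sym2 V)) :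
    0 ≤ st p Λ S0 (lf al z) := st_nonneg h0 h1 lf_nonneg

lemma ell_le_one {p : ℝ} (h0 : 0 ≤ p) (h1 : p ≤ 1) (Λ S0 : Finset (Sym2 V)) :
    st p Λ S0 (lf al z) ≤ 1 := by
  unfold st
  exact Ex_le_const h0 h1 fun S _ => lf_le_one _

lemma bd_nonneg {p : ℝ} (h0 : 0 ≤ p) (h1 : p ≤ 1) (Λ S0 : Finset (Sym2 V)) (Y : Finset V) :
    0 ≤ bd al z x y p Λ S0 Y := by
  unfold bd
  have e1 := ell_nonneg (al := al) (z := z) h0 h1 Λ S0
  have e2 := ell_le_one (al := al) (z := z) h0 h1 Λ S0
  have e3 : 0 ≤ st p Λ S0 (hf al z x y Y) := st_nonneg h0 h1 fun S => I1_nonneg _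
  have e4 : 0 ≤ st p Λ S0 (rf al z x y Y) := st_nonneg h0 h1 fun S => I1_nonneg _
  have e5 := mul_nonneg e3 (show 0 ≤ 5 - st p Λ S0 (lf al z) by linarith)
  have e6 := mul_nonneg e4 e1
  linarith

lemma side_step (hal : ∀ A B : Finset V, A ⊆ B → al A → al B) {p : ℝ} (h0 : 0 ≤ p) (h1 : p ≤ 1)
    {Λ S0 : Finset (Sym2 V)} {P : Finset (Finset V)} (hP : ∀ S ⊆ Λ ∪ S0, cl S x ∈ P)
    {c v : V} (he : s(c, v) ∈ Λ) (hc : Cn S0 z c) {Uo Uc : Finset V → Finset V → ℝ}
    (Y : Finset V)
    (ho : ∑ X ∈ P, Uo X Y ≤ bd al z x y p (Λ.erase s(c, v)) (insert s(c, v) S0) Y)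
    (hcl : ∑ X ∈ P, Uc X Y ≤ bd al z x y p (Λ.erase s(c, v)) S0 Y) :
    ∑ X ∈ P, nU al z x y p Λ S0 v (p * (st p (Λ.erase s(c, v)) (insert s(c, v) S0) (lf al z) -
      st p (Λ.erase s(c, v)) S0 (lf al z))) Uo Uc X Y ≤ bd al z x y p Λ S0 Y := by
  classical
  set lo := st p (Λ.erase s(c, v)) (insert s(c, v) S0) (lf al z) with hlo
  set lc := st p (Λ.erase s(c, v)) S0 (lf al z) with hlc
  have el : st p Λ S0 (lf al z) = p * lo + (1 - p) * lc := st_split p he _
  have er := st_split p (S0 := S0) he (rf al z x y Y)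
  have eh := st_split p (S0 := S0) he (hf al z x y Y)
  have hl : lc ≤ lo := by
    rw [hlo, hlc, st_open]
    exact st_mono h0 h1 fun S _ => lf_open_ge hal _
  have e1 := ell_nonneg (al := al) (z := z) h0 h1 Λ S0
  have e2 := ell_le_one (al := al) (z := z) h0 h1 Λ S0
  have e3 : 0 ≤ st p Λ S0 (hf al z x y Y) := st_nonneg h0 h1 fun S => I1_nonneg _
  have e4 : 0 ≤ st p Λ S0 (rf al z x y Y) := st_nonneg h0 h1 fun S => I1_nonneg _
  -- the sum over the clusters
  have hsw : ∑ X ∈ P, st p Λ S0 (wf al z x y X Y) = st p Λ S0 (rf al z x y Y) := by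
    rw [st_sum]
    unfold st
    apply Ex_congr
    intro S hS
    exact sum_wf (hP _ (union_subset_union_left hS)) Y
  have hsv : ∑ X ∈ P, (if v ∈ X then st p Λ S0 (wf al z x y X Y) else 0) =
      st p Λ S0 (fun S => I1 (cl S y = Y ∧ RR al z x y S ∧ Cn S x v)) := by
    have : ∀ X, (if v ∈ X then st p Λ S0 (wf al z x y X Y) else 0) =
        st p Λ S0 (fun S => if v ∈ X then wf al z x y X Y S else 0) := by
      intro X
      split_ifs
      · rfl
      · exact (st_zero p Λ S0).symm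
    simp_rw [this]
    rw [st_sum]
    unfold st
    apply Ex_congr
    intro S hS
    exact sum_wf_mem (hP _ (union_subset_union_left hS)) Y v
  by_cases hst : st p Λ S0 (rf al z x y Y) ≤ 4 * st p Λ S0 (hf al z x y Y)
  · unfold nU
    simp_rw [if_pos hst]
    rw [hsw]
    unfold bd
    have e5 := mul_nonneg e3 (show 0 ≤ 1 - st p Λ S0 (lf al z) by linarith)
    have e6 := mul_nonneg e4 e1
    linarith
  · unfold nU
    simp_rw [if_neg hst]
    rw [sum_add_distrib, sum_add_distrib, ← mul_sum, ← mul_sum, ← mul_sum, hsv]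
    have f1 := mul_le_mul_of_nonneg_left ho h0
    have f2 := mul_le_mul_of_nonneg_left hcl (show 0 ≤ 1 - p by linarith)
    by_cases hv : v ∈ Y
    · -- a touch
      have g1 : st p Λ S0 (fun S => I1 (cl S y = Y ∧ RR al z x y S ∧ Cn S x v)) = 0 := by
        rw [← st_zero p Λ S0]
        apply st_congr
        intro S _
        apply I1_false
        rintro ⟨k1, k2, k3⟩
        rw [← k1, mem_cl] at hv
        exact k2.1 (k3.trans hv.symm)
      have g2 : st p (Λ.erase s(c, v)) (insert s(c, v) S0) (rf al z x y Y) = 0 := by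
        rw [st_open, ← st_zero p (Λ.erase s(c, v)) S0]
        apply st_congr
        intro S hS
        exact rf_open_of_mem (hc.mono hS) hv
      have g3 : st p (Λ.erase s(c, v)) (insert s(c, v) S0) (hf al z x y Y) = 0 := by
        rw [st_open, ← st_zero p (Λ.erase s(c, v)) S0]
        apply st_congr
        intro S hS
        exact hf_open_of_mem (hc.mono hS) hv
      rw [g1]
      have f3 : p * ∑ X ∈ P, Uo X Y ≤ 0 := by
        refine f1.trans ?_
        unfold bd
        rw [g2, g3]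
        simp
      rw [g2, mul_zero, zero_add] at er
      rw [g3, mul_zero, zero_add] at eh
      unfold bd at f2 ⊢
      rw [← hlc] at f2
      push Not at hst
      have k1 : (1 - p) * (st p (Λ.erase s(c, v)) S0 (hf al z x y Y) * (5 - lc) +
          st p (Λ.erase s(c, v)) S0 (rf al z x y Y) * lc / 4) =
          st p Λ S0 (hf al z x y Y) * (5 - lc) + st p Λ S0 (rf al z x y Y) * lc / 4 := by
        rw [eh, er]; ring
      rw [k1] at f2
      have k2 : 0 ≤ st p Λ S0 (lf al z) - lc := by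
        rw [el]
        have : 0 ≤ p * (lo - lc) := mul_nonneg h0 (by linarith)
        linarith
      have k3 := mul_le_mul_of_nonneg_right hst.le k2
      linarith
    · have g0 := st_split p (S0 := S0) he (fun S => I1 (cl S y = Y ∧ RR al z x y S ∧ Cn S x v))
      have g1 : st p (Λ.erase s(c, v)) (insert s(c, v) S0)
          (fun S => I1 (cl S y = Y ∧ RR al z x y S ∧ Cn S x v)) = 0 := by
        rw [st_open, ← st_zero p (Λ.erase s(c, v)) S0]
        apply st_congr
        intro S hS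
        apply I1_false
        rintro ⟨-, k2, k3⟩
        exact k2.2.1 ((Cn_open_z (hc.mono hS)).trans k3.symm)
      rw [g1, mul_zero, zero_add] at g0
      have g2 : st p (Λ.erase s(c, v)) (insert s(c, v) S0) (rf al z x y Y) ≤
          st p (Λ.erase s(c, v)) S0 (rf al z x y Y) := by
        rw [st_open]
        exact st_mono h0 h1 fun S hS => rf_open_le (hc.mono hS)
      have g3 : st p (Λ.erase s(c, v)) S0 (hf al z x y Y) +
          st p (Λ.erase s(c, v)) S0 (fun S => I1 (cl S y = Y ∧ RR al z x y S ∧ Cn S x v)) ≤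
          st p (Λ.erase s(c, v)) (insert s(c, v) S0) (hf al z x y Y) := by
        rw [st_open]
        have : st p (Λ.erase s(c, v)) S0 (hf al z x y Y) +
          st p (Λ.erase s(c, v)) S0 (fun S => I1 (cl S y = Y ∧ RR al z x y S ∧ Cn S x v)) =
          st p (Λ.erase s(c, v)) S0 (fun S => hf al z x y Y S +
            I1 (cl S y = Y ∧ RR al z x y S ∧ Cn S x v)) := by
          unfold st
          rw [← Ex_add]
        rw [this]
        exact st_mono h0 h1 fun S hS => hf_open_ge hal (hc.mono hS) hv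
      have k := arith h0 h1 eh er el hl g0 g3 g2
      unfold bd at f1 f2 ⊢
      rw [← hlo] at f1
      rw [← hlc] at f2
      linarith

/-- A cluster without unrevealed boundary edges is complete. -/
lemma cl_done {Λ S0 S : Finset (Sym2 V)} (hS : S ⊆ Λ)
    (hd : ∀ c v : V, s(c, v) ∈ Λ → Cn S0 z c → Cn S0 z v) : cl (S ∪ S0) z = cl S0 z := by
  apply Subset.antisymm
  · intro b hb
    rw [mem_cl] at hb ⊢
    refine Cn_closed (A := {b | Cn S0 z b}) ?_ (Cn.refl S0 z) hb
    intro u hu w huw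
    rcases mem_union.1 huw with h | h
    · exact hd u w (hS h) hu
    · exact hu.trans (Cn_of_mem h)
  · exact cl_mono subset_union_right z

theorem key (hal : ∀ A B : Finset V, A ⊆ B → al A → al B) {p : ℝ} (h0 : 0 ≤ p) (h1 : p ≤ 1)
    {P : Finset (Finset V)} (n : ℕ) : ∀ (Λ S0 : Finset (Sym2 V)), Λ.card = n →
    (∀ S ⊆ Λ ∪ S0, cl S x ∈ P ∧ cl S y ∈ P) →
    ∃ U U' : Finset V → Finset V → ℝ, (∀ X Y, 0 ≤ U X Y) ∧ (∀ X Y, 0 ≤ U' X Y) ∧
      (∀ X Y, st p Λ S0 (wf al z x y X Y) * st p Λ S0 (lf al z) ≤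
        st p Λ S0 (fun S => wf al z x y X Y S * lf al z S) + U X Y + U' Y X) ∧
      (∀ Y, ∑ X ∈ P, U X Y ≤ bd al z x y p Λ S0 Y) ∧
      (∀ X, ∑ Y ∈ P, U' Y X ≤ bd al z y x p Λ S0 X) := by
  classical
  induction n with
  | zero =>
    intro Λ S0 hn _
    rw [card_eq_zero] at hn
    subst hn
    refine ⟨fun _ _ => 0, fun _ _ => 0, fun _ _ => le_rfl, fun _ _ => le_rfl, ?_, ?_, ?_⟩
    · intro X Y
      unfold st
      rw [Ex_empty, Ex_empty, Ex_empty]
      simp
    · intro Y
      rw [sum_const_zero]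
      exact bd_nonneg h0 h1 _ _ _
    · intro Y
      rw [sum_const_zero]
      exact bd_nonneg h0 h1 _ _ _
  | succ n ih =>
    intro Λ S0 hn hP
    by_cases hd : ∀ c v : V, s(c, v) ∈ Λ → Cn S0 z c → Cn S0 z v
    · refine ⟨fun _ _ => 0, fun _ _ => 0, fun _ _ => le_rfl, fun _ _ => le_rfl, ?_, ?_, ?_⟩
      · intro X Y
        have e1 : st p Λ S0 (lf al z) = I1 (al (cl S0 z)) := by
          unfold st lf
          rw [Ex_congr p (G := fun _ => I1 (al (cl S0 z))), Ex_const]
          intro S hS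
          rw [cl_done hS hd]
        have e2 : st p Λ S0 (fun S => wf al z x y X Y S * lf al z S) =
            st p Λ S0 (wf al z x y X Y) * I1 (al (cl S0 z)) := by
          unfold st lf
          rw [← Ex_mul_const]
          apply Ex_congr
          intro S hS
          beta_reduce
          rw [cl_done hS hd]
        rw [e1, e2]
        simp
      · intro Y
        rw [sum_const_zero]
        exact bd_nonneg h0 h1 _ _ _
      · intro Y
        rw [sum_const_zero]
        exact bd_nonneg h0 h1 _ _ _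
    · push Not at hd
      obtain ⟨c, v, he, hc, -⟩ := hd
      have hn' : (Λ.erase s(c, v)).card = n := by
        rw [card_erase_of_mem he, hn]; rfl
      have hPo : ∀ S ⊆ Λ.erase s(c, v) ∪ insert s(c, v) S0, cl S x ∈ P ∧ cl S y ∈ P := by
        intro S hS
        apply hP S
        refine hS.trans ?_
        rw [union_insert, ← insert_union, insert_erase he]
      have hPc : ∀ S ⊆ Λ.erase s(c, v) ∪ S0, cl S x ∈ P ∧ cl S y ∈ P := fun S hS =>
        hP S (hS.trans (union_subset_union_left (erase_subset _ _)))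
      obtain ⟨Uo, Uo', a1, a2, a3, a4, a5⟩ := ih _ _ hn' hPo
      obtain ⟨Uc, Uc', b1, b2, b3, b4, b5⟩ := ih _ _ hn' hPc
      set lo := st p (Λ.erase s(c, v)) (insert s(c, v) S0) (lf al z) with hlo
      set lc := st p (Λ.erase s(c, v)) S0 (lf al z) with hlc
      have el : st p Λ S0 (lf al z) = p * lo + (1 - p) * lc := st_split p he _
      have hl : lc ≤ lo := by
        rw [hlo, hlc, st_open]
        exact st_mono h0 h1 fun S _ => lf_open_ge hal _
      have ha : 0 ≤ p * (lo - lc) := mul_nonneg h0 (by linarith)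
      have hp : 0 ≤ 1 - p := by linarith
      have hw : ∀ X Y, 0 ≤ st p Λ S0 (wf al z x y X Y) := fun X Y =>
        st_nonneg h0 h1 fun S => I1_nonneg _
      have hw' : ∀ X Y, 0 ≤ st p Λ S0 (wf al z y x X Y) := fun X Y =>
        st_nonneg h0 h1 fun S => I1_nonneg _
      have hl1 := ell_le_one (al := al) (z := z) h0 h1 Λ S0
      have nn : ∀ X Y, 0 ≤ nU al z x y p Λ S0 v (p * (lo - lc)) Uo Uc X Y := by
        intro X Y
        unfold nU
        split_ifs
        · exact hw X Y
        · have q1 := mul_nonneg ha (hw X Y)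
          have q2 := mul_nonneg h0 (a1 X Y)
          have q3 := mul_nonneg hp (b1 X Y)
          linarith
        · have q2 := mul_nonneg h0 (a1 X Y)
          have q3 := mul_nonneg hp (b1 X Y)
          linarith
      have nn' : ∀ X Y, 0 ≤ nU al z y x p Λ S0 v (p * (lo - lc)) Uo' Uc' X Y := by
        intro X Y
        unfold nU
        split_ifs
        · exact hw' X Y
        · have q1 := mul_nonneg ha (hw' X Y)
          have q2 := mul_nonneg h0 (a2 X Y)
          have q3 := mul_nonneg hp (b2 X Y)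
          linarith
        · have q2 := mul_nonneg h0 (a2 X Y)
          have q3 := mul_nonneg hp (b2 X Y)
          linarith
      refine ⟨nU al z x y p Λ S0 v (p * (lo - lc)) Uo Uc,
        nU al z y x p Λ S0 v (p * (lo - lc)) Uo' Uc', nn, nn', ?_, ?_, ?_⟩
      · intro X Y
        have hz : 0 ≤ st p Λ S0 (fun S => wf al z x y X Y S * lf al z S) :=
          st_nonneg h0 h1 fun S => mul_nonneg (I1_nonneg _) (I1_nonneg _)
        have hww : st p Λ S0 (wf al z x y X Y) * st p Λ S0 (lf al z) ≤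
            st p Λ S0 (wf al z x y X Y) := by
          have := mul_le_mul_of_nonneg_left hl1 (hw X Y)
          linarith
        have hsy : st p Λ S0 (wf al z y x Y X) = st p Λ S0 (wf al z x y X Y) :=
          st_congr fun S _ => (wf_symm X Y S).symm
        have n1 := nn X Y
        have n2 := nn' Y X
        by_cases s1 : st p Λ S0 (rf al z x y Y) ≤ 4 * st p Λ S0 (hf al z x y Y)
        · have : nU al z x y p Λ S0 v (p * (lo - lc)) Uo Uc X Y = st p Λ S0 (wf al z x y X Y) := by
            unfold nU; rw [if_pos s1]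
          rw [this]
          linarith
        by_cases s2 : st p Λ S0 (rf al z y x X) ≤ 4 * st p Λ S0 (hf al z y x X)
        · have : nU al z y x p Λ S0 v (p * (lo - lc)) Uo' Uc' Y X =
              st p Λ S0 (wf al z x y X Y) := by
            unfold nU; rw [if_pos s2, hsy]
          rw [this]
          linarith
        have u1 : nU al z x y p Λ S0 v (p * (lo - lc)) Uo Uc X Y = p * (lo - lc) *
            (if v ∈ X then st p Λ S0 (wf al z x y X Y) else 0) +
              (p * Uo X Y + (1 - p) * Uc X Y) := by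
          unfold nU; rw [if_neg s1]
        have u2 : nU al z y x p Λ S0 v (p * (lo - lc)) Uo' Uc' Y X = p * (lo - lc) *
            (if v ∈ Y then st p Λ S0 (wf al z x y X Y) else 0) +
              (p * Uo' Y X + (1 - p) * Uc' Y X) := by
          unfold nU; rw [if_neg s2, hsy]
        have ew := st_split p (S0 := S0) he (wf al z x y X Y)
        have ez := st_split p (S0 := S0) he (fun S => wf al z x y X Y S * lf al z S)
        have i1 := mul_le_mul_of_nonneg_left (a3 X Y) h0
        have i2 := mul_le_mul_of_nonneg_left (b3 X Y) hp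
        by_cases hv : v ∈ X ∨ v ∈ Y
        · have g1 : st p (Λ.erase s(c, v)) (insert s(c, v) S0) (wf al z x y X Y) = 0 := by
            rw [st_open, ← st_zero p (Λ.erase s(c, v)) S0]
            apply st_congr
            intro S hS
            exact wf_open_of_mem (hc.mono hS) hv
          have q1 : st p Λ S0 (wf al z x y X Y) ≤ (if v ∈ X then st p Λ S0 (wf al z x y X Y) else 0)
              + (if v ∈ Y then st p Λ S0 (wf al z x y X Y) else 0) := by
            have hwXY := hw X Y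
            rcases hv with hv | hv
            · rw [if_pos hv]
              split_ifs <;> linarith
            · rw [if_pos hv]
              split_ifs <;> linarith
          have q2 := mul_le_mul_of_nonneg_left q1 ha
          rw [g1, mul_zero, zero_add] at ew
          rw [g1, zero_mul] at i1
          have q3 : (1 - p) * (st p (Λ.erase s(c, v)) S0 (wf al z x y X Y) * lc) =
              st p Λ S0 (wf al z x y X Y) * lc := by rw [ew]; ring
          rw [q3] at i2
          have q4 : st p Λ S0 (wf al z x y X Y) * st p Λ S0 (lf al z) =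
              st p Λ S0 (wf al z x y X Y) * lc + p * (lo - lc) * st p Λ S0 (wf al z x y X Y) := by
            rw [el]; ring
          rw [u1, u2, q4, ez]
          linarith
        · push Not at hv
          have g1 : st p (Λ.erase s(c, v)) (insert s(c, v) S0) (wf al z x y X Y) =
              st p (Λ.erase s(c, v)) S0 (wf al z x y X Y) := by
            rw [st_open]
            apply st_congr
            intro S hS
            exact wf_open_of_notMem (hc.mono hS) hv.1 hv.2
          rw [g1] at ew i1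
          have q4 : st p Λ S0 (wf al z x y X Y) * st p Λ S0 (lf al z) =
              p * (st p (Λ.erase s(c, v)) S0 (wf al z x y X Y) * lo) +
                (1 - p) * (st p (Λ.erase s(c, v)) S0 (wf al z x y X Y) * lc) := by
            rw [el, ew]; ring
          rw [u1, u2, q4, ez, if_neg hv.1, if_neg hv.2]
          linarith
      · intro Y
        exact side_step hal h0 h1 (fun S hS => (hP S hS).1) he hc Y (a4 Y) (b4 Y)
      · intro X
        exact side_step hal h0 h1 (fun S hS => (hP S hS).2) he hc X (a5 X) (b5 X)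

/-! ### The main result -/

/-- `x` and `y` are in distinct clusters with the property. -/
def Dd (al : Finset V → Prop) (x y : V) (S : Finset (Sym2 V)) : Prop :=
  ¬ Cn S x y ∧ al (cl S x) ∧ al (cl S y)

lemma Dd_split (S : Finset (Sym2 V)) :
    I1 (Dd al x y S) = I1 (RR al z x y S) + I1 (HH al z x y S) + I1 (HH al z y x S) := by
  by_cases h : Dd al x y S
  · obtain ⟨h1, h2, h3⟩ := h
    rw [I1_true ⟨h1, h2, h3⟩]
    by_cases hx : Cn S z x
    · rw [I1_false (P := RR al z x y S) fun h => h.2.1 hx,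
        I1_true (P := HH al z x y S) ⟨h1, hx, h2, h3⟩,
        I1_false (P := HH al z y x S) fun h => h1 (hx.symm.trans h.2.1)]
      norm_num
    · by_cases hy : Cn S z y
      · rw [I1_false (P := RR al z x y S) fun h => h.2.2.1 hy,
          I1_false (P := HH al z x y S) fun h => hx h.2.1,
          I1_true (P := HH al z y x S) ⟨fun h => h1 h.symm, hy, h3, h2⟩]
        norm_num
      · rw [I1_true (P := RR al z x y S) ⟨h1, hx, hy, h2, h3⟩,
          I1_false (P := HH al z x y S) fun h => hx h.2.1,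
          I1_false (P := HH al z y x S) fun h => hy h.2.1]
        norm_num
  · rw [I1_false h, I1_false (P := RR al z x y S) fun h' => h ⟨h'.1, h'.2.2.2.1, h'.2.2.2.2⟩,
      I1_false (P := HH al z x y S) fun h' => h ⟨h'.1, h'.2.2.1, h'.2.2.2⟩,
      I1_false (P := HH al z y x S) fun h' => h ⟨fun g => h'.1 g.symm, h'.2.2.2, h'.2.2.1⟩]
    norm_num

lemma HH_lf (S : Finset (Sym2 V)) : I1 (HH al z x y S) * lf al z S = I1 (HH al z x y S) := by
  by_cases h : HH al z x y S
  · have : lf al z S = 1 := by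
      unfold lf
      rw [cl_eq h.2.1]
      exact I1_true h.2.2.1
    rw [this, mul_one]
  · rw [I1_false h, zero_mul]

lemma sum_hf {P : Finset (Finset V)} {S : Finset (Sym2 V)} (hP : cl S y ∈ P) :
    ∑ Y ∈ P, hf al z x y Y S = I1 (HH al z x y S) := by
  rw [sum_eq_single (cl S y)]
  · unfold hf
    by_cases h : HH al z x y S
    · rw [I1_true (P := cl S y = cl S y ∧ HH al z x y S) ⟨rfl, h⟩, I1_true h]
    · rw [I1_false (P := cl S y = cl S y ∧ HH al z x y S) fun h' => h h'.2, I1_false h]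
  · intro Y _ hY
    exact I1_false fun h => hY h.1.symm
  · intro h; exact absurd hP h

lemma sum_rf {P : Finset (Finset V)} {S : Finset (Sym2 V)} (hP : cl S y ∈ P) :
    ∑ Y ∈ P, rf al z x y Y S = I1 (RR al z x y S) := by
  rw [sum_eq_single (cl S y)]
  · unfold rf
    by_cases h : RR al z x y S
    · rw [I1_true (P := cl S y = cl S y ∧ RR al z x y S) ⟨rfl, h⟩, I1_true h]
    · rw [I1_false (P := cl S y = cl S y ∧ RR al z x y S) fun h' => h h'.2, I1_false h]
  · intro Y _ hY
    exact I1_false fun h => hY h.1.symm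
  · intro h; exact absurd hP h

lemma st_empty (p : ℝ) (Λ : Finset (Sym2 V)) (f : Finset (Sym2 V) → ℝ) :
    st p Λ ∅ f = Ex p Λ f := by
  unfold st
  simp

/-- The sum over the clusters, in the initial state. -/
lemma sum_bd {p : ℝ} {Λ : Finset (Sym2 V)} {P : Finset (Finset V)}
    (hP : ∀ S ⊆ Λ, cl S y ∈ P) :
    ∑ Y ∈ P, bd al z x y p Λ ∅ Y = Ex p Λ (fun S => I1 (HH al z x y S)) *
      (5 - Ex p Λ (lf al z)) + Ex p Λ (fun S => I1 (RR al z x y S)) * Ex p Λ (lf al z) / 4 := by
  unfold bd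
  simp_rw [st_empty]
  rw [sum_add_distrib, ← sum_mul, ← sum_div, ← sum_mul, ← Ex_sum, ← Ex_sum]
  rw [Ex_congr p (F := fun S => ∑ Y ∈ P, hf al z x y Y S)
    (G := fun S => I1 (HH al z x y S)) fun S hS => sum_hf (hP S hS),
    Ex_congr p (F := fun S => ∑ Y ∈ P, rf al z x y Y S)
    (G := fun S => I1 (RR al z x y S)) fun S hS => sum_rf (hP S hS)]

/-- **The three cluster inequality.** -/
theorem three (hal : ∀ A B : Finset V, A ⊆ B → al A → al B) {p : ℝ} (h0 : 0 ≤ p) (h1 : p ≤ 1)
    (Λ : Finset (Sym2 V)) (x y z : V) :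
    Ex p Λ (fun S => I1 (Dd al x y S)) * Ex p Λ (fun S => I1 (al (cl S z))) ≤
      10 * Ex p Λ (fun S => I1 (Dd al x y S) * I1 (al (cl S z))) := by
  classical
  set P : Finset (Finset V) := Λ.powerset.image (fun S => cl S x) ∪
    Λ.powerset.image (fun S => cl S y) with hPdef
  have hP : ∀ S ⊆ Λ, cl S x ∈ P ∧ cl S y ∈ P := fun S hS =>
    ⟨mem_union_left _ (mem_image_of_mem _ (mem_powerset.2 hS)),
      mem_union_right _ (mem_image_of_mem _ (mem_powerset.2 hS))⟩
  obtain ⟨U, U', -, -, h3, h4, h5⟩ := key (z := z) (x := x) (y := y) (P := P) hal h0 h1 Λ.card Λ ∅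
    rfl (by simpa using hP)
  have k3 : ∑ X ∈ P, ∑ Y ∈ P, st p Λ ∅ (wf al z x y X Y) * st p Λ ∅ (lf al z) ≤
      ∑ X ∈ P, ∑ Y ∈ P, (st p Λ ∅ (fun S => wf al z x y X Y S * lf al z S) + U X Y + U' Y X) :=
    sum_le_sum fun X _ => sum_le_sum fun Y _ => h3 X Y
  have k4 : ∑ X ∈ P, ∑ Y ∈ P, U X Y ≤ Ex p Λ (fun S => I1 (HH al z x y S)) *
      (5 - Ex p Λ (lf al z)) + Ex p Λ (fun S => I1 (RR al z x y S)) * Ex p Λ (lf al z) / 4 := by
    rw [sum_comm, ← sum_bd fun S hS => (hP S hS).2]
    exact sum_le_sum fun Y _ => h4 Y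
  have k5 : ∑ X ∈ P, ∑ Y ∈ P, U' Y X ≤ Ex p Λ (fun S => I1 (HH al z y x S)) *
      (5 - Ex p Λ (lf al z)) + Ex p Λ (fun S => I1 (RR al z y x S)) * Ex p Λ (lf al z) / 4 := by
    rw [← sum_bd fun S hS => (hP S hS).1]
    exact sum_le_sum fun X _ => h5 X
  have hsy : Ex p Λ (fun S => I1 (RR al z y x S)) = Ex p Λ (fun S => I1 (RR al z x y S)) := by
    apply Ex_congr
    intro S _
    by_cases h : RR al z x y S
    · rw [I1_true h, I1_true h.symm]
    · rw [I1_false h, I1_false fun h' => h h'.symm]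
  have k6 : ∑ X ∈ P, ∑ Y ∈ P, st p Λ ∅ (wf al z x y X Y) * st p Λ ∅ (lf al z) =
      Ex p Λ (fun S => I1 (RR al z x y S)) * Ex p Λ (lf al z) := by
    simp_rw [st_empty, ← sum_mul, ← Ex_sum]
    congr 1
    apply Ex_congr
    intro S hS
    rw [sum_comm]
    rw [← sum_rf (x := x) (hP S hS).2]
    apply sum_congr rfl
    intro Y _
    exact sum_wf (hP S hS).1 Y
  have k7 : ∑ X ∈ P, ∑ Y ∈ P, st p Λ ∅ (fun S => wf al z x y X Y S * lf al z S) =
      Ex p Λ (fun S => I1 (RR al z x y S) * lf al z S) := by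
    simp_rw [st_empty, ← Ex_sum]
    apply Ex_congr
    intro S hS
    rw [sum_comm]
    simp_rw [← sum_mul]
    congr 1
    rw [← sum_rf (x := x) (hP S hS).2]
    apply sum_congr rfl
    intro Y _
    exact sum_wf (hP S hS).1 Y
  simp_rw [sum_add_distrib] at k3
  rw [k6, k7] at k3
  rw [hsy] at k5
  have e1 : Ex p Λ (fun S => I1 (Dd al x y S)) = Ex p Λ (fun S => I1 (RR al z x y S)) +
      Ex p Λ (fun S => I1 (HH al z x y S)) + Ex p Λ (fun S => I1 (HH al z y x S)) := by
    rw [← Ex_add, ← Ex_add]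
    exact Ex_congr p fun S _ => Dd_split S
  have e2 : Ex p Λ (fun S => I1 (Dd al x y S) * I1 (al (cl S z))) =
      Ex p Λ (fun S => I1 (RR al z x y S) * lf al z S) +
      Ex p Λ (fun S => I1 (HH al z x y S)) + Ex p Λ (fun S => I1 (HH al z y x S)) := by
    rw [← Ex_add, ← Ex_add]
    apply Ex_congr
    intro S _
    have := HH_lf (al := al) (x := x) (y := y) (z := z) S
    have h' := HH_lf (al := al) (x := y) (y := x) (z := z) S
    rw [Dd_split (z := z) S]
    unfold lf at this h' ⊢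
    rw [add_mul, add_mul, this, h']
  have e3 : Ex p Λ (fun S => I1 (al (cl S z))) = Ex p Λ (lf al z) := rfl
  rw [e1, e2, e3]
  have l0 : 0 ≤ Ex p Λ (lf al z) := Ex_nonneg h0 h1 fun S _ => lf_nonneg S
  have n1 : 0 ≤ Ex p Λ (fun S => I1 (HH al z x y S)) := Ex_nonneg h0 h1 fun S _ => I1_nonneg _
  have n2 : 0 ≤ Ex p Λ (fun S => I1 (HH al z y x S)) := Ex_nonneg h0 h1 fun S _ => I1_nonneg _
  have n3 : 0 ≤ Ex p Λ (fun S => I1 (RR al z x y S) * lf al z S) :=
    Ex_nonneg h0 h1 fun S _ => mul_nonneg (I1_nonneg _) (lf_nonneg S)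
  have m1 := mul_nonneg l0 n1
  have m2 := mul_nonneg l0 n2
  nlinarith only [k3, k4, k5, m1, m2, n1, n2, n3]

/-- **The quasi-triangle inequality.** -/
theorem quasi_triangle (hal : ∀ A B : Finset V, A ⊆ B → al A → al B) {p : ℝ} (h0 : 0 ≤ p)
    (h1 : p ≤ 1) (Λ : Finset (Sym2 V)) (x y z : V) :
    Ex p Λ (fun S => I1 (Dd al x y S)) * Ex p Λ (fun S => I1 (al (cl S z))) ≤
      10 * (Ex p Λ (fun S => I1 (Dd al x z S)) + Ex p Λ (fun S => I1 (Dd al z y S))) := by
  refine (three hal h0 h1 Λ x y z).trans (mul_le_mul_of_nonneg_left ?_ (by norm_num))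
  rw [← Ex_add]
  apply Ex_mono h0 h1
  intro S _
  rw [← I1_and]
  by_cases h : Dd al x y S ∧ al (cl S z)
  · obtain ⟨⟨h1, h2, h3⟩, h4⟩ := h
    rw [I1_true ⟨⟨h1, h2, h3⟩, h4⟩]
    by_cases hx : Cn S x z
    · have : I1 (Dd al z y S) = 1 := I1_true ⟨fun h => h1 (hx.trans h), h4, h3⟩
      rw [this]
      linarith [I1_nonneg (Dd al x z S)]
    · have : I1 (Dd al x z S) = 1 := I1_true ⟨hx, h2, h4⟩
      rw [this]
      linarith [I1_nonneg (Dd al z y S)]
  · rw [I1_false h]
    exact add_nonneg (I1_nonneg _) (I1_nonneg _)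

end TC

/-- The quasi-triangle inequality for the size of the cluster. -/
theorem PD_triangle {p : ℝ} (h0 : 0 ≤ p) (h1 : p ≤ 1) (Λ : Finset (Sym2 V)) (n : ℕ) (x y z : V) :
    PD p Λ n x y * Ex p Λ (fun S => I1 (n ≤ csz S z)) ≤
      10 * (PD p Λ n x z + PD p Λ n z y) :=
  quasi_triangle (al := fun K => n ≤ K.card) (fun _ _ h h' => h'.trans (card_le_card h)) h0 h1 Λ
    x y z

end Vale.Agent.P151.H990
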